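import Vale.Agent.P361.Bloch

/-!
# The sharp spin-wave lower bound on the magnetization deficit of the 3D Heisenberg ferromagnet
-/

open Filter Topology

namespace Vale.Agent.Results.P361.BlochDeficitLowerBound

open Vale.Agent.P361

theorem result : ∀ n : ℕ, 1 ≤ n → ∃ (p : ℝ → ℝ → ℝ) (m : ℝ → ℝ),
    (∀ β : ℝ, 0 < β → ∀ h : ℝ, Tendsto (fun N => pressure n N β h) atTop (𝓝 (p β h))) ∧
    (∀ β : ℝ, 0 < β → HasDerivWithinAt (p β) (m β) (Set.Ioi 0) 0) ∧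
    (∀ ε : ℝ, 0 < ε → ∀ᶠ β in atTop,
      blochConstant n - ε ≤ β ^ (3 / 2 : ℝ) * ((n : ℝ) / 2 - m β)) :=
  fun n hn => ⟨freeEnergy n, mS n, fun _ hβ h => freeEnergy_spec n hβ h,
    fun _ hβ => freeEnergy_hasDeriv n hβ, fun _ hε => deficit_asymptotic n hn hε⟩

end Vale.Agent.Results.P361.BlochDeficitLowerBound
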